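import Vale.Agent.P237.Petty.Cor.Few.Data

/-!
# P237: the field for the orders from six to eleven
-/

namespace Vale.Agent.P237.Petty.Cor.Few

/-- The field on `9 ≤ M ≤ 14`. -/
def data8 : Data where
  lo := 9
  hi := 14
  nu0 := (313, 250)
  nu1 := (347, 10000)
  b0 := (-3, 100)
  b1 := (17, 5000)
  bm := (1307, 1000)
  k0 := (333, 200)
  k1 := (-157, 2000)
  g := (853, 500)
  d1 := (103, 100)
  w0 := (17, 5)
  v0 := (2, 1)
  lv := (1386, 1000)
  lam := (8, 1)
  ell := (5, 2)
  zc := (2, 23)
  a i := [(6667, 250000), (-515859, 1000000), (111856, 15625), (21281333, 1000000),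
    (1867393, 500000), (13, 10), (-5041, 200000), (-200603, 250000),
    (10185603, 500000)].getD i (0, 1)

end Vale.Agent.P237.Petty.Cor.Few
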